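import Vale.Agent.P366F.Ks
import Vale.Agent.P366K3.Cf
import Vale.Agent.P366M.Apx
import Vale.Agent.P366Z.Int

/-!
# P366CE: the surface gravity, and the equations of the multiplier where there is no source
-/

set_option linter.all false

open MeasureTheory Filter Topology Set Matrix
open scoped ContDiff
open Vale.Agent.P366 Vale.Agent.P366M Vale.Agent.P366K Vale.Agent.P366K3
open Vale.Agent.P366.Stmt (E Field omega)
open Vale.Agent.P366Y.C (Sy)

noncomputable section

namespace Vale.Agent.P366CE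

variable {n : ℕ} {M : Type} [Mfe n M] {e : Ch n M} {T h k : Field n} {B : Set (E n)} {x : M}

/-- **EQK** -/
theorem eqk (H : FULL) : EQK := fun n M _ D m P hn af dec mar en mo eq => by
  obtain ⟨-, k, -⟩ := H n M D m P hn af dec (fun x hx => (mar x hx).le) en mo
  have n3 : (3 : ℝ) ≤ n := by exact_mod_cast hn
  have w := P366Z.omega_pos (n := n) (by omega)
  have s0 : 0 ≤ ∑ i, P i ^ 2 := Finset.sum_nonneg fun i _ => sq_nonneg _
  have b : 0 < bm m P := Real.sqrt_pos.2 (by
    nlinarith [Real.sq_sqrt s0, Real.sqrt_nonneg (∑ i, P i ^ 2)])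
  obtain ⟨r, hr⟩ : ∃ r, r = (D.Amin.toReal / omega n) ^ ((n : ℝ) - 1)⁻¹ := ⟨_, rfl⟩
  have a0 : 0 ≤ D.Amin.toReal / omega n := by positivity
  have e1 : r ^ ((n : ℝ) - 2) / 2 = bm m P := by
    rw [hr, ← Real.rpow_mul a0, ← eq, inv_mul_eq_div]
  have e2 : r ^ ((n : ℝ) - 1) = D.Amin.toReal / omega n := by
    rw [hr, Real.rpow_inv_rpow a0 (by linarith)]
  have r0 : 0 < r := (hr ▸ Real.rpow_nonneg a0 _ : 0 ≤ r).lt_of_ne fun j => by
    rw [← j, Real.zero_rpow (by linarith)] at e1
    linarith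
  have n2 : (0 : ℝ) < n - 2 := by linarith
  refine ⟨(n - 2) / (2 * r), hn, af, dec, mar, en, mo, by positivity, ?_, ?_⟩
  · rw [← e1, P366DV.ms, show ((n : ℝ) - 2) / (2 * ((n - 2) / (2 * r))) = r by field_simp]
  · rw [← e1, (div_eq_iff w.ne').1 e2.symm, show (n : ℝ) - 1 = n - 2 + 1 by ring,
      Real.rpow_add_one r0.ne']
    field_simp

/-- the extension by zero of a tensor from the chart `e` -/
def zt (e : Ch n M) (T : Field n) : Fld n M := fun x i j =>
  zx e (fun y => ∑ k, ∑ l, (J e y)⁻¹ k i * (J e y)⁻¹ l j * T y k l) x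

theorem rep_zt (he : e ∈ At M) (T : Field n) : rep e (zt e T) = T := funext fun y => by
  have a : mat (zt e T) (e.symm y) = (J e y)⁻¹ᵀ * Stmt.mat T y * (J e y)⁻¹ :=
    Matrix.ext fun i j => (zx_symm (V := ℝ) he
      (fun y => ∑ k, ∑ l, (J e y)⁻¹ k i * (J e y)⁻¹ l j * T y k l) y).trans
      (sum2_eq _ _ (Stmt.mat T y) i j)
  have b := mat_rep e (zt e T) y
  rwa [a, ← Matrix.mul_assoc, ← Matrix.mul_assoc, ← transpose_mul, J_inv_mul he, transpose_one,
    Matrix.one_mul, Matrix.mul_assoc, J_inv_mul he, Matrix.mul_one] at b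

theorem zt_zero (z : ∀ y ∉ B, T y = 0) (hx : x ∉ e.symm '' B) : zt e T x = fun _ _ => 0 :=
  funext fun i => funext fun j => zx_zero (fun y hy => by simp [z y hy]) hx

theorem zt_ev (he : e ∈ At M) (hB : IsCompact B) (z : ∀ y ∉ B, T y = 0) (hx : x ∉ e.symm '' B) :
    zt e T =ᶠ[𝓝 x] fun _ _ _ => 0 :=
  Eventually.mono ((cpt_image he hB).isClosed.isOpen_compl.mem_nhds hx) fun _ => zt_zero z

theorem sym_zt (he : e ∈ At M) (hB : IsCompact B) (z : ∀ y ∉ B, T y = 0) (hT : Sy T) :
    Sym (zt e T) := by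
  refine ⟨smT_of fun x => ?_, fun x i j => congrArg (zx e · x) (funext fun y => ?_)⟩
  · by_cases hx : x ∈ e.symm '' B
    · exact ⟨e, he, image_sub he B hx, fun i j => by rw [rep_zt he]; exact (hT.sm i j).contDiffAt⟩
    · exact ⟨ch x, ch_mem x, mem_ch x, fun i j => (smT_zero _ (ch_mem x) i j).contDiffAt.congr_of_eventuallyEq
        ((rep_congr_pt (zt_ev he hB z hx)).mono fun y m => congrFun (congrFun m i) j)⟩
  · rw [Finset.sum_comm]
    exact Finset.sum_congr rfl fun a _ => Finset.sum_congr rfl fun b _ => by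
      rw [hT.sy y b a]; ring

variable {D : Exterior n M} {m κ R1 R2 ε c l : ℝ} {P : Fin n → ℝ} {Z X : Fin n → M → ℝ} {W : Type}
  [MeasurableSpace W] {π : W → M} {ν : W → Fin n → ℝ} {α β : Measure W} {η : Measure M} {N : M → ℝ}

theorem var_zt (he : e ∈ At M) (hB : IsCompact B) (z : ∀ y ∉ B, h y = 0 ∧ k y = 0) (sh : Sy h)
    (sk : Sy k) (ε : ℝ) : Var D ε (zt e h) (zt e k) 0 0 0 := by
  obtain ⟨R, -, hR⟩ := bdd_px (cpt_image he hB)
  exact var_cpt (sym_zt he hB (fun y m => (z y m).1) sh) (sym_zt he hB (fun y m => (z y m).2) sk)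
    (R := R + 1) (fun x hx => ⟨zt_zero (fun y m => (z y m).1) fun j => by linarith [hR x j],
      zt_zero (fun y m => (z y m).2) fun j => by linarith [hR x j]⟩) ε

/-- **the identity of the multipliers in a chart**, for variations inside the domain -/
theorem id_ch (hR : REP) (hn : 0 < n) (H : Mm D m P κ R1 R2 ε Z π ν α β η c l)
    (G : Rp D ε π ν α N X) (he : e ∈ At M) (hB : IsCompact B) (s : ∀ y ∈ B, 0 < D.F (e.symm y))
    (z : ∀ y ∉ B, h y = 0 ∧ k y = 0) (sh : Sy h) (sk : Sy k) :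
    (∫ y, (loc e N y * C.Lmu (rep e D.g) (rep e D.K) h k y +
      ∑ j, repV e X j y * C.Lmo (rep e D.g) (rep e D.K) h k j y) * P366Z.dens (rep e D.g) y) +
      ∫ w, ar D.g (zt e h) (π w) (ν w) ∂β = 0 := by
  have V := var_zt (D := D) he hB z sh sk ε
  have o := fun x hx => var_zero (D := D) (x := x) (zt_ev he hB (fun y m => (z y m).1) hx)
    (zt_ev he hB (fun y m => (z y m).2) hx)
  have f : ∀ x, D.F x ≤ 0 → x ∉ e.symm '' B := fun x j ⟨y, hy, a⟩ => (a ▸ s y hy).not_ge j
  have a := (id_NX hR hn H G V).2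
  obtain ⟨r, -⟩ := hR n M D.g D.K _ _ D.F D.met (symK D) V.sh V.sk D.dom.1
  rw [setIntegral_eq_integral_of_forall_compl_eq_zero fun x hx => by
      simp [(o x (f x (not_le.1 hx).le)).1, (o x (f x (not_le.1 hx).le)).2.1],
    integral_dens_chart he D.g fun x hx => by
      simp [(o x fun j => hx (image_sub he B j)).1, (o x fun j => hx (image_sub he B j)).2.1],
    integral_congr_ae (H.sη.mono fun x hx => (o x (f x hx.le)).2.2.1)] at a
  simp only [dm, mul_zero, Pi.zero_apply, Finset.sum_const_zero, sub_zero, zero_div, add_zero,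
    integral_zero] at a
  rw [← a]
  refine congrArg (· + _) (integral_congr_ae (.of_forall fun y => ?_))
  obtain ⟨r1, r2, -⟩ := r e he y
  rw [rep_zt he, rep_zt he] at r1 r2
  simp only [← r1, ← r2, mul_comm (repV e X _ y), dot_rep he, mul_comm (X _ _)]
  rfl

theorem us_open (D : Exterior n M) (π : W → M) (β : Measure W) : IsOpen (Us D π β) :=
  isOpen_iff_mem_nhds.2 fun x ⟨a, O, hO, b⟩ => by
    filter_upwards [D.dom.1.cont.continuousAt.eventually_const_lt a, eventually_mem_nhds_iff.2 hO]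
      with y h1 h2 using ⟨h1, O, h2, b⟩

/-- the source does not see the compact parts of `Us` -/
theorem us_null {A : Set M} (hA : IsCompact A) (s : A ⊆ Us D π β) : β (π ⁻¹' A) = 0 :=
  hA.induction_on (p := fun A => β (π ⁻¹' A) = 0) (by simp)
    (fun _ _ a b => measure_mono_null (preimage_mono a) b)
    (fun _ _ a b => by rw [preimage_union]; exact measure_union_null a b)
    fun x hx => let ⟨_, O, hO, b⟩ := s hx; ⟨O, nhdsWithin_le_nhds hO, b⟩

theorem act_ch (G : Rp D ε π ν α N X) (he : e ∈ At M) {y : E n} (hy : 0 ≤ D.F (e.symm y)) :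
    loc e N y * Stmt.mu (rep e D.g) (rep e D.K) y +
      ∑ j, repV e X j y * Stmt.mom (rep e D.g) (rep e D.K) j y = 0 := by
  simp only [mu_rep D.met he, mom_rep D.met he (D.smK.dt _), mul_comm (repV e X _ y), dot_rep he,
    mul_comm (mom _ _ _ _)]
  exact G.act _ hy

/-- **KQ** -/
theorem kq (hR : REP) (hA : C.ADJ) : P366F.KQ := fun n M _ A o N X G S e he y hy => by
  have n3 := o.eqc.n3
  have := hA n _ _ (loc e N) (repV e X) {y | e.symm y ∈ A.U} (by omega) (A.D.met.rep he)
    (Sym.sy' (symK A.D) he) ((us_open _ _ _).preimage (cont_symm he))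
    (fun z m => (S e he z m).1.contDiffWithinAt) (fun i z m => ((S e he z m).2 i).contDiffWithinAt)
    (fun z m => act_ch G he m.1.le) (fun h k sh sk ⟨B, s, hB, z⟩ => by
      have a := id_ch hR (by omega) o.mm G he hB (fun y m => (s m).1) z sh sk
      have u : A.β (A.π ⁻¹' (e.symm '' B)) = 0 :=
        us_null (D := A.D) (cpt_image he hB) (image_subset_iff.2 s)
      have b : ∫ w, ar A.D.g (zt e h) (A.π w) (A.ν w) ∂A.β = 0 :=
        integral_eq_zero_of_ae ((measure_eq_zero_iff_ae_notMem.1 u).mono fun w m => by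
          simp [ar, tr, zt_zero (fun y m => (z y m).1) m])
      rwa [b, add_zero] at a) y hy
  exact ⟨(S e he y hy).1, (S e he y hy).2, this.1, this.2⟩

end Vale.Agent.P366CE
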